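import Vale.Agent.P281.H125.L.PartS
import Vale.Agent.P281.H511.TK.Loc
import Vale.Agent.P284.H639.V5
import Vale.Agent.P284.H119.V1
import Vale.Agent.P284.H730.VP
import Vale.Agent.P281.H969.TL.Spec

/-!
# P281, project T-L, block B3a (helper125): Green's formula
-/

open Set Filter Metric MeasureTheory Vale.Agent.P272.K Vale.Agent.P281.H64.TK
open scoped Topology ContDiff ComplexConjugate ComplexOrder Manifold

noncomputable section

namespace Vale.Agent.P281.H125.L

open Vale.Agent.P284.H894.V Vale.Agent.P284.H639.V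
open Vale.Agent.P281.H511.TK (IsDens int_piece)

variable {d : ℕ} {E Γ : Type} [TopologicalSpace E] [Group Γ] [MulAction Γ E]
variable {S : Sheets d E Γ} {w : Fin S.N → Cm d → Matrix (Fin d) (Fin d) ℂ}

theorem kah_ku (hw : Kah S w) (i : Fin S.N) : KU (ball (0 : Cm d) 3) (w i) where
  isOpen := isOpen_ball
  smooth z hz j k := (hw.smooth i j k).contDiffAt (isOpen_ball.mem_nhds hz)
  pos z hz := hw.posDef i z hz
  closed z hz j k l := hw.closed i z hz j k l

theorem det_jac (θ : Cm d → Cm d) (z : Cm d) : (fderiv ℂ θ z).det = (H64.TK.jac θ z).det := by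
  have h1 : H64.TK.jac θ z = LinearMap.toMatrix' (fderiv ℂ θ z : Cm d →ₗ[ℂ] Cm d) := by
    ext l k
    rw [LinearMap.toMatrix'_apply]
    show fderiv ℂ θ z (Pi.single k 1) l = _
    congr 2
  rw [h1, LinearMap.det_toMatrix']

theorem jac_mat {θ : Cm d → Cm d} {z : Cm d} (h : DifferentiableAt ℂ θ z) :
    (Matrix.of fun p k => dz k (fun y => θ y p) z) = H64.TK.jac θ z := by
  ext p k
  rw [Matrix.of_apply, dz_of_holo (differentiableAt_comp_apply h p), fderiv_apply h p]
  rfl

/-- the density of the Laplacian -/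
def lden (S : Sheets d E Γ) (w : Fin S.N → Cm d → Matrix (Fin d) (Fin d) ℂ) (L : E → ℝ)
    (i : Fin S.N) (z : Cm d) : ℝ := lap (w i) (fun z => L (S.σ i z)) z * vol (w i) z

theorem lden_cont (hw : Kah S w) {L : E → ℝ}
    (hL : ∀ i, ∀ z ∈ ball (0 : Cm d) 3, ContDiffAt ℝ ∞ (fun z => L (S.σ i z)) z) (i : Fin S.N) :
    ContinuousOn (lden S w L i) (ball 0 3) := fun z hz =>
  ((smooth_lap (kah_ku hw i) hz (hL i z hz)).mul
    (smooth_vol (kah_ku hw i) hz)).continuousAt.continuousWithinAt

theorem lden_dens (hw : Kah S w) {L : E → ℝ} (hinv : ∀ (γ : Γ) (e : E), L (γ • e) = L e)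
    (hL : ∀ i, ∀ z ∈ ball (0 : Cm d) 3, ContDiffAt ℝ ∞ (fun z => L (S.σ i z)) z) :
    IsDens S (lden S w L) := by
  intro i j z hz z' hz' γ θ hθ hθz hev
  have hd : DifferentiableAt ℂ θ z := hθ.differentiableAt
  have h0 := hw.change i j z hz z' hz' γ θ hθ hθz hev
  have e1 : ∀ᶠ y in 𝓝 z, L (S.σ i y) = L (S.σ j (θ y)) := by
    filter_upwards [hev] with y hy
    rw [hy, hinv]
  have h1 := Vale.Agent.P284.H730.V.vpStmt.trans (w i) (w j) (fun z => L (S.σ i z))
    (fun z => L (S.σ i z)) (fun z => L (S.σ j z)) (fun z => L (S.σ j z)) θ z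
    (hθ.eventually_analyticAt.mono fun y hy => hy.differentiableAt) (hw.posDef i z hz)
    (by rw [hθz]; exact hw.posDef j z' hz') (by rw [jac_mat hd, hθz]; exact h0)
    (by rw [hθz]; exact hL j z' hz') (by rw [hθz]; exact hL j z' hz') e1 e1
  unfold lden
  rw [h1.1, h1.2.2.2, det_jac, hθz]
  ring

/-- the integral over one sheet -/
theorem int_ball_zero (hw : Kah S w) (k : Fin S.N) {F : Cm d → ℝ}
    (hF : ∀ z ∈ ball (0 : Cm d) 3, ContDiffAt ℝ ∞ F z)
    (hF0 : ∀ z ∈ ball (0 : Cm d) 3, 2 < ‖z‖ → F z = 0) :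
    ∫ z in closedBall (0 : Cm d) 2, lap (w k) F z * vol (w k) z = 0 := by
  classical
  have h23 : closedBall (0 : Cm d) 2 ⊆ ball 0 3 := closedBall_subset_ball (by norm_num)
  set G : Cm d → ℝ := fun z => if z ∈ ball (0 : Cm d) 3 then F z else 0 with hG
  have hGF : ∀ z ∈ ball (0 : Cm d) 3, G =ᶠ[𝓝 z] F := by
    intro z hz
    filter_upwards [isOpen_ball.mem_nhds hz] with y hy
    exact if_pos hy
  have hG0 : ∀ z, 2 < ‖z‖ → G z = 0 := by
    intro z hz
    by_cases h : z ∈ ball (0 : Cm d) 3
    · rw [hG]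
      dsimp only
      rw [if_pos h]
      exact hF0 z h hz
    · exact if_neg h
  have hG0' : ∀ z, 2 < ‖z‖ → G =ᶠ[𝓝 z] fun _ => 0 := by
    intro z hz
    filter_upwards [(isOpen_lt continuous_const continuous_norm).mem_nhds hz] with y hy
    exact hG0 y hy
  have hTU : TU (ball (0 : Cm d) 3) G := by
    have hs : tsupport G ⊆ closedBall (0 : Cm d) 2 := by
      refine closure_minimal (fun z hz => ?_) isClosed_closedBall
      rw [mem_closedBall_zero_iff]
      by_contra hc
      exact hz (hG0 z (not_le.1 hc))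
    refine ⟨contDiff_iff_contDiffAt.2 fun z => ?_, ?_, hs.trans h23⟩
    · by_cases h : z ∈ ball (0 : Cm d) 3
      · exact (hF z h).congr_of_eventuallyEq (hGF z h)
      · have h2 : 2 < ‖z‖ := by
          rw [mem_ball_zero_iff, not_lt] at h
          linarith
        exact contDiffAt_const.congr_of_eventuallyEq (hG0' z h2)
    · exact HasCompactSupport.of_support_subset_isCompact (isCompact_closedBall (0 : Cm d) 2)
        ((subset_tsupport G).trans hs)
  have h1 := (Vale.Agent.P284.H119.V.v1Stmt d (ball (0 : Cm d) 3) (w k) (kah_ku hw k) G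
    (fun _ => (1 : ℝ)) hTU (fun z _ => contDiffAt_const)).1
  have h2 : ∀ z, gr (w k) G (fun _ => (1 : ℝ)) z = 0 := by
    intro z
    have h3 : ∀ j : Fin d, dzb j (fun _ : Cm d => ((1 : ℝ) : ℂ)) z = 0 := by
      intro j
      simp [dzb]
    simp only [gr, h3]
    simp
  simp only [h2, zero_mul, integral_zero, neg_zero, mul_one] at h1
  calc ∫ z in closedBall (0 : Cm d) 2, lap (w k) F z * vol (w k) z
      = ∫ z in closedBall (0 : Cm d) 2, lap (w k) G z * vol (w k) z := by
        refine setIntegral_congr_fun measurableSet_closedBall fun z hz => ?_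
        simp only [lap_congr (hGF z (h23 hz))]
    _ = ∫ z in ball (0 : Cm d) 3, lap (w k) G z * vol (w k) z := by
        refine (setIntegral_eq_of_subset_of_forall_sdiff_eq_zero measurableSet_ball h23 ?_).symm
        rintro z ⟨hz, hz2⟩
        rw [mem_closedBall_zero_iff, not_le] at hz2
        rw [lap_eq_zero (hG0' z hz2), zero_mul]
    _ = 0 := h1

/-- **B3a** -/
theorem green : H969.TL.GreenStmt := by
  intro d E Γ _ _ _ _ _ _ S w L hd hw hinv hsm
  have hL : ∀ i, ∀ z ∈ ball (0 : Cm d) 3, ContDiffAt ℝ ∞ (fun z => L (S.σ i z)) z :=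
    fun i z hz => (hsm i).contDiffAt (isOpen_ball.mem_nhds hz)
  have hLk : ∀ k i, ∀ z ∈ ball (0 : Cm d) 3,
      ContDiffAt ℝ ∞ (fun z => rho S k (S.σ i z) * L (S.σ i z)) z :=
    fun k i z hz => (rho_smooth k i hz).mul (hL i z hz)
  have hinvk : ∀ k (γ : Γ) (e : E), rho S k (γ • e) * L (γ • e) = rho S k e * L e := by
    intro k γ e
    rw [rho_smul, hinv]
  -- the pieces
  have h1 : ∀ k, ∑ j, ∫ z in S.P j, lden S w (fun e => rho S k e * L e) j z = 0 := by
    intro k
    rw [← int_piece S (D := lden S w (fun e => rho S k e * L e)) (lden_cont hw (hLk k))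
      (lden_dens hw (hinvk k) (hLk k)) k ?_]
    · refine int_ball_zero hw k (hLk k k) fun z hz hz2 => ?_
      show rho S k (S.σ k z) * L (S.σ k z) = 0
      rw [rho_zero, zero_mul]
      intro γ z' hz' he
      have h2 : γ • S.σ k z' = (1 : Γ) • S.σ k z := by rw [one_smul]; exact he
      have h3 := (uniq (mem_ball_zero_iff.2 (by linarith)) hz h2).2
      rw [h3] at hz'
      linarith
    · intro j z hz hne
      by_contra hcon
      push Not at hcon
      refine hne ?_
      unfold lden
      rw [lap_eq_zero, zero_mul]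
      filter_upwards [rho_eventually k j hz hcon] with y hy
      rw [hy, zero_mul]
  -- the sum
  have h2 : ∀ j, ∫ z in S.P j, lden S w L j z =
      ∑ k, ∫ z in S.P j, lden S w (fun e => rho S k e * L e) j z := by
    intro j
    rw [← integral_finsetSum _ fun k _ =>
      (H864.K.integrableOn_P S j (lden_cont hw (hLk k) j) : IntegrableOn _ _ _)]
    refine setIntegral_congr_fun (H864.K.meas_P S j) fun z hz => ?_
    have hz3 : z ∈ ball (0 : Cm d) 3 := H864.K.P_subset3 S j hz
    unfold lden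
    dsimp only
    rw [← Finset.sum_mul]
    congr 1
    have h3 := lap_sum (w := w j) (z := z) Finset.univ
      (F := fun k z => rho S k (S.σ j z) * L (S.σ j z)) fun k _ => hLk k j z hz3
    rw [← h3]
    congr 1
    funext y
    rw [← Finset.sum_mul, sum_rho, one_mul]
  have h3 : ∀ j, ∫ z in S.P j, ((w j z).det * ((w j z)⁻¹ * cHess (fun z => L (S.σ j z)) z).trace).re =
      ∫ z in S.P j, lden S w L j z := by
    intro j
    refine setIntegral_congr_fun (H864.K.meas_P S j) fun z hz => ?_
    have hz3 : z ∈ ball (0 : Cm d) 3 := H864.K.P_subset3 S j hz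
    have h4 : (w j z).det.im = 0 := (Complex.pos_iff.1 (hw.posDef j z hz3).det_pos).2.symm
    unfold lden lap vol
    rw [Complex.mul_re, h4]
    ring
  simp only [h3, h2]
  rw [Finset.sum_comm]
  exact Finset.sum_eq_zero fun k _ => h1 k

end Vale.Agent.P281.H125.L
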