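import Vale.Agent.P281.H511.TK.Part

/-!
# P281, project T-L, block B3a (helper125): partition of unity on one manifold
-/

open Set Filter Metric MeasureTheory Vale.Agent.P272.K Vale.Agent.P281.H64.TK
open scoped Topology ContDiff ComplexConjugate ComplexOrder Manifold

noncomputable section

namespace Vale.Agent.P281.H125.L

open Vale.Agent.P281.H511.TK (cut cut_smooth cut_nonneg cut_one cut_zero)

variable {d : ℕ} {E Γ : Type} [TopologicalSpace E] [Group Γ] [MulAction Γ E]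

open Classical in
/-- the cut-off function of the sheet `i` -/
def bmp (S : Sheets d E Γ) (i : Fin S.N) (e : E) : ℝ :=
  if h : ∃ z : Cm d, z ∈ ball (0 : Cm d) 3 ∧ ∃ γ : Γ, γ • S.σ i z = e then cut d h.choose else 0

variable {S : Sheets d E Γ}

theorem uniq {i : Fin S.N} {γ δ : Γ} {z w : Cm d}
    (hz : z ∈ ball (0 : Cm d) 3) (hw : w ∈ ball (0 : Cm d) 3)
    (h : γ • S.σ i z = δ • S.σ i w) : γ = δ ∧ z = w := by
  have h1 : (δ⁻¹ * γ) • S.σ i z = S.σ i w := by rw [mul_smul, h, inv_smul_smul]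
  obtain ⟨h2, h3⟩ := S.inj i z hz w hw _ h1
  exact ⟨(inv_mul_eq_one.1 h2).symm, h3⟩

theorem bmp_eq {i : Fin S.N} {γ : Γ} {z : Cm d} {e : E}
    (hz : z ∈ ball (0 : Cm d) 3) (h : γ • S.σ i z = e) : bmp S i e = cut d z := by
  have h0 : ∃ z : Cm d, z ∈ ball (0 : Cm d) 3 ∧ ∃ γ : Γ, γ • S.σ i z = e := ⟨z, hz, γ, h⟩
  unfold bmp
  rw [dif_pos h0]
  obtain ⟨h1, δ, h2⟩ := h0.choose_spec
  rw [(uniq h1 hz (h2.trans h.symm)).2]

theorem bmp_zero {i : Fin S.N} {e : E}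
    (h : ∀ (γ : Γ) (z : Cm d), ‖z‖ ≤ 2 → γ • S.σ i z ≠ e) : bmp S i e = 0 := by
  unfold bmp
  split_ifs with h0
  · obtain ⟨h1, δ, h2⟩ := h0.choose_spec
    refine cut_zero ?_
    by_contra hcon
    exact h δ _ (not_le.1 hcon).le h2
  · rfl

theorem bmp_nonneg (i : Fin S.N) (e : E) : 0 ≤ bmp S i e := by
  unfold bmp
  split_ifs
  · exact cut_nonneg _
  · exact le_rfl

theorem bmp_smul {i : Fin S.N} (γ : Γ) (e : E) : bmp S i (γ • e) = bmp S i e := by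
  by_cases h : ∃ z : Cm d, z ∈ ball (0 : Cm d) 3 ∧ ∃ γ : Γ, γ • S.σ i z = e
  · obtain ⟨z, hz, δ, hδ⟩ := h
    rw [bmp_eq hz hδ, bmp_eq (γ := γ * δ) hz (by rw [mul_smul, hδ])]
  · have h' : ¬ ∃ z : Cm d, z ∈ ball (0 : Cm d) 3 ∧ ∃ δ : Γ, δ • S.σ i z = γ • e := by
      rintro ⟨z, hz, δ, hδ⟩
      exact h ⟨z, hz, γ⁻¹ * δ, by rw [mul_smul, hδ, inv_smul_smul]⟩
    unfold bmp
    rw [dif_neg h, dif_neg h']

/-- the sum of the cut-off functions -/
def sm (S : Sheets d E Γ) (e : E) : ℝ := ∑ i, bmp S i e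

theorem one_le_sm (e : E) : 1 ≤ sm S e := by
  obtain ⟨γ, i, z, hz, h⟩ := S.cover e
  have h1 : bmp S i e = 1 := by
    rw [bmp_eq (by
      rw [mem_ball, dist_zero_right]
      linarith) h]
    exact cut_one hz.le
  rw [← h1]
  exact Finset.single_le_sum (f := fun i => bmp S i e) (fun j _ => bmp_nonneg j e)
    (Finset.mem_univ i)

/-- the partition of unity -/
def rho (S : Sheets d E Γ) (i : Fin S.N) (e : E) : ℝ := bmp S i e / sm S e

theorem sum_rho (e : E) : ∑ i, rho S i e = 1 := by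
  have h1 : sm S e ≠ 0 := by
    have := one_le_sm (S := S) e
    linarith
  unfold rho
  rw [← Finset.sum_div]
  exact div_self h1

theorem rho_zero {i : Fin S.N} {e : E}
    (h : ∀ (γ : Γ) (z : Cm d), ‖z‖ ≤ 2 → γ • S.σ i z ≠ e) : rho S i e = 0 := by
  unfold rho
  rw [bmp_zero h, zero_div]

theorem rho_smul {i : Fin S.N} (γ : Γ) (e : E) : rho S i (γ • e) = rho S i e := by
  unfold rho sm
  rw [bmp_smul]
  congr 1
  exact Finset.sum_congr rfl fun j _ => bmp_smul γ e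

theorem tendsto_sheet (j : Fin S.N) {z : Cm d} (hz : z ∈ ball (0 : Cm d) 3) :
    Tendsto (S.σ j) (𝓝 z) (𝓝 (S.σ j z)) := (S.map_nhds j z hz).le

theorem ev_off (i : Fin S.N) {r : ℝ} (hr : r < 3) {e : E}
    (h : ∀ (γ : Γ) (z : Cm d), ‖z‖ ≤ r → γ • S.σ i z ≠ e) :
    ∀ᶠ e' in 𝓝 e, ∀ (γ : Γ) (z : Cm d), ‖z‖ ≤ r → γ • S.σ i z ≠ e' := by
  have h1 : e ∈ {e : E | ∃ (γ : Γ) (z : Cm d), ‖z‖ ≤ r ∧ γ • S.σ i z = e}ᶜ := by
    rintro ⟨γ, z, hz, he⟩
    exact h γ z hz he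
  filter_upwards [(S.closed i r hr).isOpen_compl.mem_nhds h1] with e' he' γ z hz h2
  exact he' ⟨γ, z, hz, h2⟩

theorem bmp_smooth (i j : Fin S.N) {z : Cm d} (hz : z ∈ ball (0 : Cm d) 3) :
    ContDiffAt ℝ ∞ (fun z => bmp S i (S.σ j z)) z := by
  by_cases h : ∃ (γ : Γ) (w : Cm d), ‖w‖ ≤ 5 / 2 ∧ γ • S.σ i w = S.σ j z
  · obtain ⟨γ, w, hw, h⟩ := h
    have hw3 : w ∈ ball (0 : Cm d) 3 := by
      rw [mem_ball, dist_zero_right]
      linarith
    obtain ⟨θ, hθ, hθw, hev⟩ := S.hol j i z hz w hw3 γ h.symm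
    have h1 : ∀ᶠ q in 𝓝 z, θ q ∈ ball (0 : Cm d) 3 :=
      hθ.continuousAt.eventually (isOpen_ball.mem_nhds (by rw [hθw]; exact hw3))
    have h2 : (fun z => bmp S i (S.σ j z)) =ᶠ[𝓝 z] fun q => cut d (θ q) := by
      filter_upwards [h1, hev] with q h3 h4
      exact bmp_eq h3 h4.symm
    refine ContDiffAt.congr_of_eventuallyEq ?_ h2
    exact (cut_smooth d).contDiffAt.comp _ (hθ.contDiffAt.restrict_scalars ℝ)
  · push Not at h
    have h1 := ev_off i (r := 5 / 2) (by norm_num) (fun γ w hw => h γ w hw)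
    have h2 : (fun z => bmp S i (S.σ j z)) =ᶠ[𝓝 z] fun _ => 0 := by
      filter_upwards [(tendsto_sheet j hz).eventually h1] with q h3
      exact bmp_zero fun γ w hw => h3 γ w (by linarith)
    exact contDiffAt_const.congr_of_eventuallyEq h2

theorem rho_smooth (i j : Fin S.N) {z : Cm d} (hz : z ∈ ball (0 : Cm d) 3) :
    ContDiffAt ℝ ∞ (fun z => rho S i (S.σ j z)) z := by
  have h1 : ContDiffAt ℝ ∞ (fun z => sm S (S.σ j z)) z :=
    ContDiffAt.sum fun k _ => bmp_smooth k j hz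
  refine (bmp_smooth i j hz).div h1 ?_
  have := one_le_sm (S := S) (S.σ j z)
  show sm S (S.σ j z) ≠ 0
  linarith

/-- off its support, the function number `i` vanishes locally -/
theorem rho_eventually (i j : Fin S.N) {z : Cm d} (hz : z ∈ ball (0 : Cm d) 3)
    (h : ∀ (γ : Γ) (w : Cm d), ‖w‖ ≤ 2 → γ • S.σ i w ≠ S.σ j z) :
    ∀ᶠ z in 𝓝 z, rho S i (S.σ j z) = 0 := by
  have h1 := ev_off i (r := 2) (by norm_num) h
  filter_upwards [(tendsto_sheet j hz).eventually h1] with q h3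
  exact rho_zero fun γ w hw => h3 γ w hw

end Vale.Agent.P281.H125.L
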